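import Vale.Agent.P297.H278.Ex.Gen
import Mathlib.Tactic.FieldSimp
import Mathlib.Tactic.LinearCombination

/-!
# Fields with the equations of type four exist
-/

open Polynomial

namespace Vale.Agent.P297.H278.Ex

theorem four (m : Fin 11 → ℂ) (hm : m 2 ≠ 0) :
    ∃ (K : Type) (_ : Field K) (_ : Algebra ℂ K) (u w p q : K),
      AlgebraicIndependent ℂ ![u, w] ∧ IntermediateField.adjoin ℂ {u, w, p, q} = ⊤ ∧
      (p * q + (algebraMap ℂ K (m 0) * u / w + algebraMap ℂ K (m 1) / u +
          algebraMap ℂ K (m 2) * u * w + algebraMap ℂ K (m 3) * u + algebraMap ℂ K (m 4)) = 0 ∧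
        w * p ^ 2 + q ^ 2 + algebraMap ℂ K (m 9) * w * p + algebraMap ℂ K (m 10) * q +
          (algebraMap ℂ K (m 5) + algebraMap ℂ K (m 6) * w +
            (algebraMap ℂ K (m 7) + algebraMap ℂ K (m 8) * w) * u) = 0) := by
  -- the two coefficients
  set c : Fin 11 → F2 := fun i => algebraMap ℂ F2 (m i) with hc
  set G : F2 := c 0 * ga / gb + c 1 / ga + c 2 * ga * gb + c 3 * ga + c 4 with hG
  set H : F2 := c 5 + c 6 * gb + (c 7 + c 8 * gb) * ga with hH
  have hG0 : G ≠ 0 := by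
    intro h0
    have h1 : ga * gb * G = 0 := by rw [h0, mul_zero]
    have h2 : ga * gb * G = algebraMap R2 F2
        (MvPolynomial.C (m 0) * MvPolynomial.X 0 ^ 2 + MvPolynomial.C (m 1) * MvPolynomial.X 1 +
          MvPolynomial.C (m 2) * MvPolynomial.X 0 ^ 2 * MvPolynomial.X 1 ^ 2 +
          MvPolynomial.C (m 3) * MvPolynomial.X 0 ^ 2 * MvPolynomial.X 1 +
          MvPolynomial.C (m 4) * MvPolynomial.X 0 * MvPolynomial.X 1) := by
      have hC : ∀ x : ℂ, algebraMap R2 F2 (MvPolynomial.C x) = algebraMap ℂ F2 x := fun x => rfl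
      simp only [map_add, map_mul, map_pow, hC]
      change ga * gb * G = c 0 * ga ^ 2 + c 1 * gb + c 2 * ga ^ 2 * gb ^ 2 +
        c 3 * ga ^ 2 * gb + c 4 * ga * gb
      rw [hG]
      field_simp [ga_ne, gb_ne]
    rw [h1] at h2
    have h3 := IsFractionRing.injective R2 F2 (h2.symm.trans (map_zero _).symm)
    have e : ∀ x y : ℂ, m 0 * x ^ 2 + m 1 * y + m 2 * x ^ 2 * y ^ 2 + m 3 * x ^ 2 * y +
        m 4 * x * y = 0 := by
      intro x y
      have h4 := congrArg (MvPolynomial.eval ![x, y]) h3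
      simpa using h4
    apply hm
    have e1 := e 1 1
    have e2 := e 1 (-1)
    have e3 := e (-1) 1
    have e4 := e (-1) (-1)
    have e5 := e 1 0
    linear_combination (e1 + e2 + e3 + e4) / 4 - e5
  -- the quartic
  obtain ⟨K, _, _, φ, r, hind, htop, hr⟩ :=
    exists_quartic gb (c 9 * gb) H (-(c 10 * G)) (G ^ 2) gb_ne
  have hφc : ∀ i, φ (c i) = algebraMap ℂ K (m i) := fun i => φ.commutes _
  have hu : φ ga ≠ 0 := by
    rw [Ne, map_eq_zero]
    exact ga_ne
  have hw : φ gb ≠ 0 := by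
    rw [Ne, map_eq_zero]
    exact gb_ne
  have hG1 : φ G ≠ 0 := by
    rw [Ne, map_eq_zero]
    exact hG0
  have hr' : φ gb * r ^ 4 + algebraMap ℂ K (m 9) * φ gb * r ^ 3 + φ H * r ^ 2 -
      algebraMap ℂ K (m 10) * φ G * r + φ G ^ 2 = 0 := by
    simp only [map_mul, map_neg, map_pow, hφc] at hr
    linear_combination hr
  have hr0 : r ≠ 0 := by
    rintro rfl
    apply hG1
    have : φ G ^ 2 = 0 := by linear_combination hr'
    exact pow_eq_zero_iff (two_ne_zero) |>.mp this
  have hGe : φ G = algebraMap ℂ K (m 0) * φ ga / φ gb + algebraMap ℂ K (m 1) / φ ga +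
      algebraMap ℂ K (m 2) * φ ga * φ gb + algebraMap ℂ K (m 3) * φ ga +
      algebraMap ℂ K (m 4) := by
    rw [hG]
    simp only [map_add, map_mul, map_div₀, hφc]
  have hHe : φ H = algebraMap ℂ K (m 5) + algebraMap ℂ K (m 6) * φ gb +
      (algebraMap ℂ K (m 7) + algebraMap ℂ K (m 8) * φ gb) * φ ga := by
    rw [hH]
    simp only [map_add, map_mul, hφc]
  refine ⟨K, inferInstance, inferInstance, φ ga, φ gb, r, -φ G / r, hind, ?_, ?_, ?_⟩
  · rw [eq_top_iff, ← htop]
    exact IntermediateField.adjoin.mono _ _ _ (by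
      intro x hx
      simp only [Set.mem_insert_iff, Set.mem_singleton_iff] at hx ⊢
      tauto)
  · rw [← hGe]
    field_simp
    ring
  · rw [← hHe]
    field_simp
    linear_combination hr'

end Vale.Agent.P297.H278.Ex
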