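import Mathlib.FieldTheory.IntermediateField.Adjoin.Defs
import Mathlib.FieldTheory.IntermediateField.Adjoin.Basic
import Mathlib.RingTheory.AdjoinRoot
import Mathlib.RingTheory.AlgebraicIndependent.Basic
import Mathlib.RingTheory.AlgebraicIndependent.Transcendental
import Mathlib.RingTheory.MvPolynomial.Basic
import Mathlib.Analysis.Complex.Basic

/-!
# Function fields given by one root over `ℂ(a, b)`
-/

open Polynomial

namespace Vale.Agent.P297.H278.Ex

/-- The polynomial ring in two variables. -/
abbrev R2 : Type := MvPolynomial (Fin 2) ℂ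

/-- The rational function field in two variables. -/
abbrev F2 : Type := FractionRing R2

/-- The first variable. -/
noncomputable def ga : F2 := algebraMap R2 F2 (MvPolynomial.X 0)

/-- The second variable. -/
noncomputable def gb : F2 := algebraMap R2 F2 (MvPolynomial.X 1)

theorem exists_root (P : F2[X]) (hP : 0 < P.natDegree) :
    ∃ (K : Type) (_ : Field K) (_ : Algebra ℂ K) (φ : F2 →ₐ[ℂ] K) (r : K),
      AlgebraicIndependent ℂ ![φ ga, φ gb] ∧
      IntermediateField.adjoin ℂ {φ ga, φ gb, r} = ⊤ ∧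
      P.eval₂ (φ : F2 →+* K) r = 0 := by
  obtain ⟨g, hg, hgP⟩ := Polynomial.exists_irreducible_of_natDegree_pos hP
  have : Fact (Irreducible g) := ⟨hg⟩
  let φ : F2 →ₐ[ℂ] AdjoinRoot g := IsScalarTower.toAlgHom ℂ F2 (AdjoinRoot g)
  have hφ : ∀ x, φ x = AdjoinRoot.of g x := fun x => rfl
  refine ⟨AdjoinRoot g, inferInstance, inferInstance, φ, AdjoinRoot.root g, ?_, ?_, ?_⟩
  · have h0 : AlgebraicIndependent ℂ (MvPolynomial.X : Fin 2 → R2) :=
      MvPolynomial.algebraicIndependent_X (Fin 2) ℂ
    let ψ : R2 →ₐ[ℂ] AdjoinRoot g := φ.comp (IsScalarTower.toAlgHom ℂ R2 F2)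
    have hinj : Function.Injective ψ := by
      intro x y hxy
      have h1 : φ (algebraMap R2 F2 x) = φ (algebraMap R2 F2 y) := hxy
      exact IsFractionRing.injective R2 F2 (φ.toRingHom.injective h1)
    have h1 := h0.map' hinj
    have h2 : (ψ ∘ (MvPolynomial.X : Fin 2 → R2)) = ![φ ga, φ gb] := by
      funext i
      fin_cases i <;> rfl
    rw [← h2]
    exact h1
  · rw [eq_top_iff]
    intro x _
    set S := IntermediateField.adjoin ℂ ({φ ga, φ gb, AdjoinRoot.root g} : Set (AdjoinRoot g))
    have ha : φ ga ∈ S := IntermediateField.subset_adjoin _ _ (by simp)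
    have hb : φ gb ∈ S := IntermediateField.subset_adjoin _ _ (by simp)
    have hr : AdjoinRoot.root g ∈ S := IntermediateField.subset_adjoin _ _ (by simp)
    have hR : ∀ y : R2, φ (algebraMap R2 F2 y) ∈ S := by
      intro y
      induction y using MvPolynomial.induction_on with
      | C c =>
        have : φ (algebraMap R2 F2 (MvPolynomial.C c)) = algebraMap ℂ (AdjoinRoot g) c := by
          have h1 : algebraMap R2 F2 (MvPolynomial.C c) = algebraMap ℂ F2 c := rfl
          rw [h1]
          exact φ.commutes c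
        rw [this]
        exact S.algebraMap_mem c
      | add p q hp hq =>
        rw [map_add, map_add]
        exact S.add_mem hp hq
      | mul_X p i hp =>
        rw [map_mul, map_mul]
        refine S.mul_mem hp ?_
        fin_cases i
        · exact ha
        · exact hb
    have hF : ∀ y : F2, φ y ∈ S := by
      intro y
      obtain ⟨c, d, -, rfl⟩ := IsFractionRing.div_surjective (A := R2) y
      rw [map_div₀]
      exact S.div_mem (hR c) (hR d)
    induction x using AdjoinRoot.induction_on with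
    | ih p =>
      have h1 : AdjoinRoot.mk g p = p.eval₂ (φ : F2 →+* AdjoinRoot g) (AdjoinRoot.root g) := by
        have := AdjoinRoot.aeval_eq (f := g) p
        rw [← this, Polynomial.aeval_def]
        rfl
      rw [h1, Polynomial.eval₂_eq_sum_range]
      refine S.sum_mem fun i _ => S.mul_mem (hF _) (pow_mem hr i)
  · obtain ⟨h, rfl⟩ := hgP
    have h1 : g.eval₂ (φ : F2 →+* AdjoinRoot g) (AdjoinRoot.root g) = 0 := AdjoinRoot.eval₂_root g
    rw [Polynomial.eval₂_mul, h1, zero_mul]

/-- The same for a quartic. -/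
theorem exists_quartic (e d c b a : F2) (he : e ≠ 0) :
    ∃ (K : Type) (_ : Field K) (_ : Algebra ℂ K) (φ : F2 →ₐ[ℂ] K) (r : K),
      AlgebraicIndependent ℂ ![φ ga, φ gb] ∧
      IntermediateField.adjoin ℂ {φ ga, φ gb, r} = ⊤ ∧
      φ e * r ^ 4 + φ d * r ^ 3 + φ c * r ^ 2 + φ b * r + φ a = 0 := by
  have hdeg : 0 < (C e * X ^ 4 + C d * X ^ 3 + C c * X ^ 2 + C b * X + C a : F2[X]).natDegree := by
    by_contra hcon
    have h1 : (C e * X ^ 4 + C d * X ^ 3 + C c * X ^ 2 + C b * X + C a : F2[X]).coeff 4 = 0 :=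
      Polynomial.coeff_eq_zero_of_natDegree_lt (by omega)
    refine he (Eq.trans ?_ h1)
    simp
  obtain ⟨K, i1, i2, φ, r, hind, htop, hr⟩ := exists_root _ hdeg
  refine ⟨K, i1, i2, φ, r, hind, htop, ?_⟩
  simpa [Polynomial.eval₂_add, Polynomial.eval₂_mul] using hr

theorem ga_ne : ga ≠ 0 := by
  intro h
  have h1 : (MvPolynomial.X 0 : R2) = 0 :=
    IsFractionRing.injective R2 F2 (by rw [map_zero]; exact h)
  exact MvPolynomial.X_ne_zero _ h1

theorem gb_ne : gb ≠ 0 := by
  intro h
  have h1 : (MvPolynomial.X 1 : R2) = 0 :=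
    IsFractionRing.injective R2 F2 (by rw [map_zero]; exact h)
  exact MvPolynomial.X_ne_zero _ h1

/-- A polynomial in the variables with a nonzero value is not zero. -/
theorem ne_of_eval (f : R2) (x y : ℂ) (h : MvPolynomial.eval ![x, y] f ≠ 0) :
    algebraMap R2 F2 f ≠ 0 := by
  intro h0
  apply h
  have h1 : f = 0 := IsFractionRing.injective R2 F2 (by rw [map_zero]; exact h0)
  rw [h1, map_zero]

end Vale.Agent.P297.H278.Ex
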